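import Vale.Agent.P189.H738.Upper
import Vale.Agent.P189.H741.Iface2

set_option autoImplicit false
set_option linter.all false

open MeasureTheory
open scoped ENNReal Pointwise

namespace Vale.Agent.P189.M

open UpperAux UpAux

theorem infinite_zpowers_of {G : Type} [Group G] (t : G) (ht : ∀ n : ℕ, t ^ n = 1 → n = 0) :
    Infinite (Subgroup.zpowers t) := by
  refine Infinite.of_injective (fun n : ℕ => (⟨t ^ n, Subgroup.npow_mem_zpowers t n⟩ :
    Subgroup.zpowers t)) ?_
  intro m n h
  have h' : t ^ m = t ^ n := congrArg Subtype.val h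
  rcases le_total m n with hmn | hmn
  · have : t ^ (n - m) = 1 := by
      rw [pow_sub t hmn, ← h', mul_inv_cancel]
    have := ht _ this
    omega
  · have : t ^ (m - n) = 1 := by
      rw [pow_sub t hmn, ← h', mul_inv_cancel]
    have := ht _ this
    omega

theorem midUpperSt : MidUpperSt := by
  classical
  intro G ι _ _ _ p q t hM hlift s
  have hinft : Infinite (Subgroup.zpowers t) := infinite_zpowers_of t hM.tinf
  obtain ⟨φ, hφp, hφq, hφt⟩ := hlift KK (fun i => if i ∈ s then 1 else kp)
    (fun i => if i ∈ s then 1 else kq)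
    (fun i => by
      by_cases h : i ∈ s
      · simp [h]
      · simp only [h, if_false]; exact kp_cube)
    (fun i => by
      by_cases h : i ∈ s
      · simp [h]
      · simp only [h, if_false]; exact kq_cube)
  let actV : MulAction G VV := MulAction.compHom VV φ
  have hsm : ∀ (g : G) (v : VV), g • v = φ g • v := fun g v => rfl
  have hmV : MeasurableConstSMul G VV := ⟨fun g => by
    exact measurable_const_smul (φ g)⟩
  have hiV : SMulInvariantMeasure G VV vm := ⟨fun g s hs => by
    exact SMulInvariantMeasure.measure_preimage_smul (φ g) hs⟩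
  refine ⟨VV, inferInstance, inferInstance, vm, inferInstance, actV, hmV, hiV, ?_, ?_⟩
  · intro g hg v
    have h1 : φ g = 1 := by
      unfold sub at hg
      induction hg using Subgroup.closure_induction with
      | mem g hg =>
        rcases hg with (⟨i, hi, rfl⟩ | ⟨i, hi, rfl⟩) | hg
        · have hi' : i ∈ s := hi
          rw [hφp]; simp only [hi', if_true]
        · have hi' : i ∈ s := hi
          rw [hφq]; simp only [hi', if_true]
        · rw [Set.mem_singleton_iff.1 hg]; exact hφt
      | one => exact map_one φ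
      | mul a b _ _ iha ihb => rw [map_mul, iha, ihb, one_mul]
      | inv a _ iha => rw [map_inv, iha, inv_one]
    rw [hsm, h1, one_smul]
  · intro X _ _ μ _ _ _ _ hfree
    have hmY : MeasurableConstSMul G (X × VV) := prod_meas
    have hiY : SMulInvariantMeasure G (X × VV) (μ.prod vm) := prod_inv _ _
    refine ENNReal.le_of_forall_pos_le_add fun ε hε _ => ?_
    have hε3 : (ε : ℝ≥0∞) / 3 ≠ 0 := by
      refine ENNReal.div_ne_zero.2 ⟨by simpa using hε.ne', by simp⟩
    obtain ⟨δ, hδ, hδs⟩ := ENNReal.exists_pos_sum_of_countable hε3 ι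
    have hsec : ∀ i, ∃ E : Set X, MeasurableSet E ∧ μ E ≤ δ i ∧
        ∀ x, ∃ g ∈ Subgroup.zpowers t, g • x ∈ E := by
      intro i
      obtain ⟨E, hE, hμE, hEc⟩ := exists_small_section (Γ := Subgroup.zpowers t) μ
        (hfree.subgroup _) (ε := (δ i : ℝ≥0∞)) (by simpa using hδ i)
      exact ⟨E, hE, hμE, fun x => by
        obtain ⟨g, hg⟩ := hEc x
        exact ⟨g, g.2, hg⟩⟩
    choose E hEm hEμ hEc using hsec
    have hnn : ∀ i, ∃ n : ℕ, vm (SS n) ≤ δ i := by
      intro i
      obtain ⟨n, hn⟩ := ENNReal.exists_inv_nat_lt (a := (δ i : ℝ≥0∞)) (by simpa using (hδ i).ne')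
      refine ⟨n, ?_⟩
      rw [vm_SS]
      refine le_trans (ENNReal.inv_le_inv.2 ?_) hn.le
      push_cast
      calc (n : ℝ≥0∞) ≤ 1 * ((n : ℝ≥0∞) + 1) := by rw [one_mul]; exact le_self_add
        _ ≤ 3 * ((n : ℝ≥0∞) + 1) := by gcongr; norm_num
    choose n hn using hnn
    let S : ι → Set VV := fun i => if i ∈ s then Set.univ else SS (n i)
    have hSm : ∀ i, MeasurableSet (S i) := by
      intro i
      by_cases h : i ∈ s
      · simp only [S, h, if_true]; exact MeasurableSet.univ
      · simp only [S, h, if_false]; exact measurableSet_SS (n i)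
    have hSν : ∀ i, vm (S i) ≤ δ i + (if i ∈ s then 1 else 0) := by
      intro i
      by_cases h : i ∈ s
      · simp only [S, h, if_true]; rw [measure_univ]; exact le_add_self
      · simp only [S, h, if_false, add_zero]; exact hn i
    have hmeas : ∀ g, MeasurableSet (mD p q t E S g) := fun g =>
      (measurableSet_single t MeasurableSet.univ g).union
        (MeasurableSet.iUnion fun i => measurableSet_cop _ _ (hEm i) (hSm i) g)
    have hgen : Gen (μ.prod vm) (mD p q t E S) := by
      refine Filter.Eventually.of_forall fun y g => ?_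
      refine mD_gen p q t hM.p3 hM.q3 hM.tp hM.tr hM.gen E S hEc ?_ y g
      intro i Q hS h1 h2
      by_cases h : i ∈ s
      · simp only [S, h, if_true] at hS
        exact Set.univ_subset_iff.1 hS
      · simp only [S, h, if_false] at hS
        have hpV : ∀ v : VV, p i • v = kp • v := fun v => by
          rw [hsm, hφp]; simp only [h, if_false]
        have hqV : ∀ v : VV, q i • v = kq • v := fun v => by
          rw [hsm, hφq]; simp only [h, if_false]
        refine SS_perc (n i) Q hS (fun v hv => ?_) (fun v hv hv' => ?_)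
        · rw [← hpV]; exact h1 v hv
        · rw [← hqV, ← hqV]
          rw [← hqV] at hv'
          exact h2 v hv hv'
    calc actionCost G (X × VV) (μ.prod vm)
        ≤ dcost (μ.prod vm) (mD p q t E S) := actionCost_le_dcost _ _ hmeas hgen
      _ ≤ 1 + ∑' i, ((δ i : ℝ≥0∞) + (δ i + (δ i + (if i ∈ s then 1 else 0)))) := by
          refine (dcost_union_le _ (single t Set.univ) _).trans ?_
          rw [dcost_single, measure_univ]
          refine add_le_add le_rfl ?_
          refine (dcost_iU_le (ι := ι) _ (fun (i : ι) => cop (p i) (q i) (E i) (S i))).trans ?_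
          refine ENNReal.tsum_le_tsum fun i => ?_
          refine (dcost_cop _ _ _ _ _ _).trans ?_
          exact add_le_add (hEμ i) (add_le_add (hEμ i) (hSν i))
      _ = 1 + (3 * ∑' i, (δ i : ℝ≥0∞) + ∑' i, (if i ∈ s then 1 else 0)) := by
          rw [← ENNReal.tsum_mul_left, ← ENNReal.tsum_add]
          congr 2
          funext i
          ring
      _ = 1 + (3 * ∑' i, (δ i : ℝ≥0∞) + (s.card : ℝ≥0∞)) := by
          congr 2
          rw [tsum_eq_sum (s := s) (fun i hi => by simp [hi])]
          rw [Finset.sum_congr rfl (fun i hi => by rw [if_pos hi])]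
          simp
      _ ≤ 1 + (3 * ((ε : ℝ≥0∞) / 3) + (s.card : ℝ≥0∞)) := by gcongr
      _ = 1 + (s.card : ℝ≥0∞) + ε := by
          rw [ENNReal.mul_div_cancel (by norm_num) (by norm_num)]
          ring

end Vale.Agent.P189.M
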