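import Vale.Agent.P189.H741.Iface

set_option autoImplicit false
set_option linter.all false

open MeasureTheory
open scoped ENNReal Pointwise

namespace Vale.Agent.P189.M

open UpperAux

namespace UpAux

section Graph

variable {G X V ι : Type} [Group G] [MulAction G X] [MulAction G V]

/-- The part of the labelled graph belonging to one copy, without the `t`-edges. -/
def cop (p q : G) (E : Set X) (S : Set V) (g : G) : Set (X × V) :=
  single p (E ×ˢ Set.univ) g ∪
    (single (q * p * q⁻¹) (E ×ˢ Set.univ) g ∪ single q (Set.univ ×ˢ S) g)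

/-- The labelled graph of the upper bound. -/
def mD (p q : ι → G) (t : G) (E : ι → Set X) (S : ι → Set V) (g : G) : Set (X × V) :=
  single t Set.univ g ∪ ⋃ i, cop (p i) (q i) (E i) (S i) g

theorem upD_sub_mD (p q : ι → G) (t : G) (E : ι → Set X) (S : ι → Set V) (i : ι) (g : G) :
    upD (p i) (q i) t (E i) (S i) g ⊆ mD p q t E S g := by
  rintro y (h | h)
  · exact Or.inl h
  · exact Or.inr (Set.mem_iUnion.2 ⟨i, h⟩)

/-- Connectivity along `p` and `q` inside one copy. -/
theorem upD_pq (p q t : G) (hp : p ^ 3 = 1) (hq : q ^ 3 = 1)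
    (htp : t * p = p * t) (htr : t * (q * p * q⁻¹) = (q * p * q⁻¹) * t)
    (E : Set X) (S : Set V)
    (hE : ∀ x : X, ∃ g ∈ Subgroup.zpowers t, g • x ∈ E)
    (hperc : ∀ Q : Set V, S ⊆ Q → (∀ v ∈ Q, p • v ∈ Q) →
      (∀ v, v ∈ Q → q • v ∈ Q → q • q • v ∈ Q) → Q = Set.univ) (y : X × V) :
    Conn (upD p q t E S) y (p • y) ∧ Conn (upD p q t E S) y (q • y) := by
  have hpc : ∀ y : X × V, Conn (upD p q t E S) y (p • y) := fun y =>
    upD_comm p q t p E S htp hE (fun y hy => Or.inr (Or.inl ⟨rfl, hy, trivial⟩)) y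
  have hrc : ∀ y : X × V, Conn (upD p q t E S) y ((q * p * q⁻¹) • y) := fun y =>
    upD_comm p q t (q * p * q⁻¹) E S htr hE
      (fun y hy => Or.inr (Or.inr (Or.inl ⟨rfl, hy, trivial⟩))) y
  have hQ : {v : V | ∀ x : X, Conn (upD p q t E S) (x, v) (q • (x, v))} = Set.univ := by
    refine hperc _ ?_ ?_ ?_
    · intro v hv x
      exact Conn.of_mem (Or.inr (Or.inr (Or.inr ⟨rfl, trivial, hv⟩)))
    · intro v hv x
      have h0 : (x, p • v) = p • ((p⁻¹ • x, v) : X × V) := by
        rw [Prod.smul_mk, smul_inv_smul]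
      rw [h0]
      have h1 := hpc (p⁻¹ • x, v)
      have h2 := hv (p⁻¹ • x)
      have h3 := hrc (q • (p⁻¹ • x, v))
      rw [smul_smul, inv_mul_cancel_right, mul_smul] at h3
      exact (h1.symm.trans h2).trans h3
    · intro v hv hqv x
      have h0 : (x, q • q • v) = q • q • ((q⁻¹ • q⁻¹ • x, v) : X × V) := by
        rw [Prod.smul_mk, Prod.smul_mk, smul_inv_smul, smul_inv_smul]
      rw [h0]
      have h1 := hv (q⁻¹ • q⁻¹ • x)
      have h2 := hqv (q⁻¹ • x)
      have h3 : ((q⁻¹ • x, q • v) : X × V) = q • (q⁻¹ • q⁻¹ • x, v) := by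
        rw [Prod.smul_mk, smul_inv_smul]
      rw [h3] at h2
      have h4 : q • q • q • ((q⁻¹ • q⁻¹ • x, v) : X × V) = (q⁻¹ • q⁻¹ • x, v) := by
        rw [smul_smul, smul_smul]
        have : q * q * q = 1 := by rw [← hq, pow_succ, pow_two]
        rw [this, one_smul]
      rw [h4]
      exact (h1.trans h2).symm
  refine ⟨hpc y, ?_⟩
  obtain ⟨x, v⟩ := y
  have : v ∈ {v : V | ∀ x : X, Conn (upD p q t E S) (x, v) (q • (x, v))} := by
    rw [hQ]; trivial
  exact this x

theorem mD_gen (p q : ι → G) (t : G) (hp : ∀ i, p i ^ 3 = 1) (hq : ∀ i, q i ^ 3 = 1)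
    (htp : ∀ i, t * p i = p i * t)
    (htr : ∀ i, t * (q i * p i * (q i)⁻¹) = (q i * p i * (q i)⁻¹) * t)
    (hgen : sub p q t Set.univ = ⊤) (E : ι → Set X) (S : ι → Set V)
    (hE : ∀ i, ∀ x : X, ∃ g ∈ Subgroup.zpowers t, g • x ∈ E i)
    (hperc : ∀ i, ∀ Q : Set V, S i ⊆ Q → (∀ v ∈ Q, p i • v ∈ Q) →
      (∀ v, v ∈ Q → q i • v ∈ Q → q i • q i • v ∈ Q) → Q = Set.univ) (y : X × V) (g : G) :
    Conn (mD p q t E S) y (g • y) := by
  have hg : g ∈ sub p q t Set.univ := by rw [hgen]; trivial
  unfold sub at hg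
  induction hg using Subgroup.closure_induction generalizing y with
  | mem g hg =>
    rcases hg with (⟨i, -, rfl⟩ | ⟨i, -, rfl⟩) | hg
    · exact (upD_pq (p i) (q i) t (hp i) (hq i) (htp i) (htr i) (E i) (S i) (hE i)
        (hperc i) y).1.mono (upD_sub_mD p q t E S i)
    · exact (upD_pq (p i) (q i) t (hp i) (hq i) (htp i) (htr i) (E i) (S i) (hE i)
        (hperc i) y).2.mono (upD_sub_mD p q t E S i)
    · rw [Set.mem_singleton_iff.1 hg]
      exact Conn.of_mem (Or.inl ⟨rfl, trivial⟩)
  | one => rw [one_smul]; exact Conn.refl _ _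
  | mul a b _ _ iha ihb =>
    rw [mul_smul]
    exact (ihb y).trans (iha _)
  | inv a _ iha =>
    have := (iha (a⁻¹ • y)).symm
    rwa [smul_inv_smul] at this

end Graph

section Product

variable {G X V : Type} [Group G] [MeasurableSpace X] [MulAction G X]
  [MulAction G V] [MeasurableSpace V]

theorem prod_meas [MeasurableConstSMul G X] [MeasurableConstSMul G V] :
    MeasurableConstSMul G (X × V) where
  measurable_const_smul g := by
    have h1 : Measurable fun x : X => g • x := measurable_const_smul g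
    have h2 : Measurable fun v : V => g • v := measurable_const_smul g
    exact (h1.comp measurable_fst).prodMk (h2.comp measurable_snd)

theorem prod_inv (μ : Measure X) [SFinite μ]
    [MeasurableConstSMul G X] [SMulInvariantMeasure G X μ] [MeasurableConstSMul G V]
    (ν : Measure V) [SFinite ν] [SMulInvariantMeasure G V ν] :
    SMulInvariantMeasure G (X × V) (μ.prod ν) := by
  have hXV : MeasurableConstSMul G (X × V) := prod_meas
  constructor
  intro g s hs
  have h1 := (measurePreserving_smul g μ).prod (measurePreserving_smul g ν)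
  exact h1.measure_preimage hs.nullMeasurableSet

theorem dcost_iU_le {ι : Type} [Countable ι] (μ : Measure X) (D : ι → G → Set X) :
    dcost μ (fun g => ⋃ i, D i g) ≤ ∑' i, dcost μ (D i) := by
  unfold dcost
  rw [ENNReal.tsum_comm]
  exact ENNReal.tsum_le_tsum fun g => measure_iUnion_le _

theorem measurableSet_cop (p q : G) {E : Set X} (hE : MeasurableSet E) {S : Set V}
    (hS : MeasurableSet S) (g : G) : MeasurableSet (cop p q E S g) :=
  (measurableSet_single p (hE.prod MeasurableSet.univ) g).union
    ((measurableSet_single _ (hE.prod MeasurableSet.univ) g).union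
      (measurableSet_single q (MeasurableSet.univ.prod hS) g))

theorem dcost_cop (μ : Measure X) [IsProbabilityMeasure μ] (ν : Measure V)
    [IsProbabilityMeasure ν] (p q : G) (E : Set X) (S : Set V) :
    dcost (μ.prod ν) (cop p q E S) ≤ μ E + (μ E + ν S) := by
  refine (dcost_union_le _ (single p (E ×ˢ Set.univ)) _).trans ?_
  rw [dcost_single]
  have h1 : (μ.prod ν) (E ×ˢ Set.univ) = μ E := by rw [Measure.prod_prod]; simp
  have h2 : (μ.prod ν) (Set.univ ×ˢ S) = ν S := by rw [Measure.prod_prod]; simp
  rw [h1]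
  refine add_le_add le_rfl ?_
  refine (dcost_union_le _ (single (q * p * q⁻¹) (E ×ˢ Set.univ)) _).trans ?_
  rw [dcost_single, dcost_single, h1, h2]

end Product

section Space

/-- The product of all the finite tori. -/
abbrev VV : Type := (n : ℕ) → Tor (n + 1)

/-- The product of the uniform measures. -/
noncomputable def vm : Measure VV := Measure.infinitePi fun n => unif (Tor (n + 1))

instance torProb (n : ℕ) : IsProbabilityMeasure (unif (Tor (n + 1))) := unif_prob _

instance vmProb : IsProbabilityMeasure vm :=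
  inferInstanceAs (IsProbabilityMeasure (Measure.infinitePi fun n => unif (Tor (n + 1))))

/-- The structure group. -/
abbrev KK : Type := (n : ℕ) → Equiv.Perm (Tor (n + 1))

/-- The action of `KK` on `VV`. -/
instance : MulAction KK VV where
  smul k v := fun n => k n (v n)
  one_smul v := rfl
  mul_smul k l v := rfl

theorem kk_smul (k : KK) (v : VV) (n : ℕ) : (k • v) n = k n (v n) := rfl

instance : MeasurableConstSMul KK VV where
  measurable_const_smul k := by
    refine measurable_pi_iff.2 fun n => ?_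
    exact (Measurable.of_discrete (f := fun w : Tor (n + 1) => k n w)).comp
      (measurable_pi_apply n)

theorem unif_map (n : ℕ) (e : Equiv.Perm (Tor (n + 1))) :
    (unif (Tor (n + 1))).map e = unif (Tor (n + 1)) := by
  have hinv : SMulInvariantMeasure (Equiv.Perm (Tor (n + 1))) (Tor (n + 1))
    (unif (Tor (n + 1))) := unif_invariant (Equiv.Perm (Tor (n + 1))) (Tor (n + 1))
  ext s hs
  rw [Measure.map_apply Measurable.of_discrete hs]
  exact hinv.measure_preimage_smul e hs

instance : SMulInvariantMeasure KK VV vm where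
  measure_preimage_smul k s hs := by
    have h : vm.map (fun v : VV => k • v) = vm := by
      have := Measure.infinitePi_map_pi (fun n => unif (Tor (n + 1)))
        (f := fun n (w : Tor (n + 1)) => k n w) (fun n => Measurable.of_discrete)
      have h2 : (fun n => (unif (Tor (n + 1))).map (fun w : Tor (n + 1) => k n w)) =
          fun n => unif (Tor (n + 1)) := by
        funext n
        exact unif_map n (k n)
      rw [vm]
      refine this.trans ?_
      congr 1
    have h2 := Measure.map_apply (μ := vm) (measurable_const_smul k) hs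
    rw [h] at h2
    exact h2.symm

/-- The percolating set in coordinate `n`. -/
def SS (n : ℕ) : Set VV := {v | v n ∈ diag (n + 1)}

theorem measurableSet_SS (n : ℕ) : MeasurableSet (SS n) :=
  measurable_pi_apply n (MeasurableSet.of_discrete (s := diag (n + 1)))

theorem vm_SS (n : ℕ) : vm (SS n) = (3 * ((n + 1 : ℕ) : ℝ≥0∞))⁻¹ := by
  rw [← unif_diag (n + 1)]
  exact (measurePreserving_eval_infinitePi (fun n => unif (Tor (n + 1))) n).measure_preimage
    (MeasurableSet.of_discrete (s := diag (n + 1))).nullMeasurableSet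

/-- The two elements. -/
def kp : KK := fun n => torusPPerm (n + 1)
def kq : KK := fun n => torusQPerm (n + 1)

theorem kp_cube : kp ^ 3 = 1 := by
  funext n
  exact torusPPerm_cube (n + 1)

theorem kq_cube : kq ^ 3 = 1 := by
  funext n
  exact torusQPerm_cube (n + 1)

theorem SS_perc (n : ℕ) (Q : Set VV) (hS : SS n ⊆ Q) (hp : ∀ v ∈ Q, kp • v ∈ Q)
    (hq : ∀ v, v ∈ Q → kq • v ∈ Q → kq • kq • v ∈ Q) : Q = Set.univ := by
  have h : {w : Tor (n + 1) | ∀ v : VV, v n = w → v ∈ Q} = Set.univ := by
    refine torus_perc (n + 1) _ ?_ ?_ ?_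
    · intro i v hv
      exact hS (show v n ∈ diag (n + 1) from ⟨i, hv.symm⟩)
    · intro w hw v hv
      have h1 : kp⁻¹ • v ∈ Q := by
        refine hw _ ?_
        have : kp • kp⁻¹ • v = v := smul_inv_smul _ _
        have h2 := congrFun this n
        rw [kk_smul, hv] at h2
        exact (torusPPerm (n + 1)).injective h2
      have h2 := hp _ h1
      rwa [smul_inv_smul] at h2
    · intro w hw hw' v hv
      have e1 : kq • kq⁻¹ • v = v := smul_inv_smul _ _
      have e2 : kq • kq⁻¹ • kq⁻¹ • v = kq⁻¹ • v := smul_inv_smul _ _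
      have h2 := congrFun e1 n
      rw [kk_smul, hv] at h2
      have h3 : (kq⁻¹ • v) n = torusQ (n + 1) w := (torusQPerm (n + 1)).injective h2
      have h4 := congrFun e2 n
      rw [kk_smul, h3] at h4
      have h5 : (kq⁻¹ • kq⁻¹ • v) n = w := (torusQPerm (n + 1)).injective h4
      have := hq (kq⁻¹ • kq⁻¹ • v) (hw _ h5) (by
        rw [e2]
        exact hw' _ h3)
      rwa [e2, e1] at this
  ext v
  simp only [Set.mem_univ, iff_true]
  have hv : v n ∈ {w : Tor (n + 1) | ∀ v : VV, v n = w → v ∈ Q} := by rw [h]; trivial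
  exact hv v rfl

end Space

theorem countable_of_gen {G ι : Type} [Group G] [Countable ι] (p q : ι → G) (t : G)
    (hgen : sub p q t Set.univ = ⊤) : Countable G := by
  let f : Option (ι × Bool) → G := fun o => match o with
    | none => t
    | some (i, true) => p i
    | some (i, false) => q i
  have h1 : (FreeGroup.lift f).range = ⊤ := by
    rw [eq_top_iff, ← hgen, sub, Subgroup.closure_le]
    rintro g ((⟨i, -, rfl⟩ | ⟨i, -, rfl⟩) | hg)
    · exact ⟨FreeGroup.of (some (i, true)), by simp [f]⟩
    · exact ⟨FreeGroup.of (some (i, false)), by simp [f]⟩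
    · rw [Set.mem_singleton_iff.1 hg]
      exact ⟨FreeGroup.of none, by simp [f]⟩
  have hc : Countable (FreeGroup (Option (ι × Bool))) := by
    unfold FreeGroup
    infer_instance
  exact (MonoidHom.range_eq_top.1 h1).countable

end UpAux

open UpAux

theorem upperSt : UpperSt := by
  intro G ι _ _ p q t hM
  have hcG : Countable G := countable_of_gen p q t hM.gen
  have hinf : Infinite G := by
    refine Infinite.of_injective (fun n : ℕ => t ^ n) ?_
    intro m n h
    have h' : t ^ m = t ^ n := h
    rcases le_total m n with hmn | hmn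
    · have : t ^ (n - m) = 1 := by
        rw [pow_sub t hmn, ← h', mul_inv_cancel]
      have := hM.tinf _ this
      omega
    · have : t ^ (m - n) = 1 := by
        rw [pow_sub t hmn, ← h', mul_inv_cancel]
      have := hM.tinf _ this
      omega
  have hinft : Infinite (Subgroup.zpowers t) := by
    refine Infinite.of_injective (fun n : ℕ => (⟨t ^ n, Subgroup.npow_mem_zpowers t n⟩ :
      Subgroup.zpowers t)) ?_
    intro m n h
    have h' : t ^ m = t ^ n := congrArg Subtype.val h
    rcases le_total m n with hmn | hmn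
    · have : t ^ (n - m) = 1 := by
        rw [pow_sub t hmn, ← h', mul_inv_cancel]
      have := hM.tinf _ this
      omega
    · have : t ^ (m - n) = 1 := by
        rw [pow_sub t hmn, ← h', mul_inv_cancel]
      have := hM.tinf _ this
      omega
  obtain ⟨φ, hφp, hφq, hφt⟩ := hM.lift KK kp kq kp_cube kq_cube
  let actV : MulAction G VV := MulAction.compHom VV φ
  have hsm : ∀ (g : G) (v : VV), g • v = φ g • v := fun g v => rfl
  have hmV : MeasurableConstSMul G VV := ⟨fun g => by
    exact measurable_const_smul (φ g)⟩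
  have hiV : SMulInvariantMeasure G VV vm := ⟨fun g s hs => by
    exact SMulInvariantMeasure.measure_preimage_smul (φ g) hs⟩
  have hmY : MeasurableConstSMul G (Bern G × VV) := prod_meas
  have hiY : SMulInvariantMeasure G (Bern G × VV) ((bernMeasure G).prod vm) := prod_inv _ _
  have hfree : EssentiallyFree G (Bern G) (bernMeasure G) := bern_free G
  have hfY : EssentiallyFree G (Bern G × VV) ((bernMeasure G).prod vm) :=
    prod_essentiallyFree _ _ hfree
  refine ⟨Bern G × VV, inferInstance, inferInstance, (bernMeasure G).prod vm, inferInstance,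
    inferInstance, hmY, hiY, hfY, le_antisymm ?_ (one_le_actionCost _ hfY)⟩
  refine ENNReal.le_of_forall_pos_le_add fun ε hε _ => ?_
  have hε3 : (ε : ℝ≥0∞) / 3 ≠ 0 := by
    refine ENNReal.div_ne_zero.2 ⟨by simpa using hε.ne', by simp⟩
  obtain ⟨δ, hδ, hδs⟩ := ENNReal.exists_pos_sum_of_countable hε3 ι
  have hsec : ∀ i, ∃ E : Set (Bern G), MeasurableSet E ∧ bernMeasure G E ≤ δ i ∧
      ∀ x, ∃ g ∈ Subgroup.zpowers t, g • x ∈ E := by
    intro i
    obtain ⟨E, hE, hμE, hEc⟩ := exists_small_section (Γ := Subgroup.zpowers t) (bernMeasure G)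
      (hfree.subgroup _) (ε := (δ i : ℝ≥0∞)) (by simpa using hδ i)
    exact ⟨E, hE, hμE, fun x => by
      obtain ⟨g, hg⟩ := hEc x
      exact ⟨g, g.2, hg⟩⟩
  choose E hEm hEμ hEc using hsec
  have hnn : ∀ i, ∃ n : ℕ, vm (SS n) ≤ δ i := by
    intro i
    obtain ⟨n, hn⟩ := ENNReal.exists_inv_nat_lt (a := (δ i : ℝ≥0∞)) (by simpa using (hδ i).ne')
    refine ⟨n, ?_⟩
    rw [vm_SS]
    refine le_trans (ENNReal.inv_le_inv.2 ?_) hn.le
    push_cast
    calc (n : ℝ≥0∞) ≤ 1 * ((n : ℝ≥0∞) + 1) := by rw [one_mul]; exact le_self_add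
      _ ≤ 3 * ((n : ℝ≥0∞) + 1) := by gcongr; norm_num
  choose n hn using hnn
  have hmeas : ∀ g, MeasurableSet (mD p q t E (fun i => SS (n i)) g) := fun g =>
    (measurableSet_single t MeasurableSet.univ g).union
      (MeasurableSet.iUnion fun i => measurableSet_cop _ _ (hEm i) (measurableSet_SS (n i)) g)
  have hpV : ∀ (i : ι) (v : VV), p i • v = kp • v := fun i v => by rw [hsm, hφp]
  have hqV : ∀ (i : ι) (v : VV), q i • v = kq • v := fun i v => by rw [hsm, hφq]
  have hgen : Gen ((bernMeasure G).prod vm) (mD p q t E (fun i => SS (n i))) := by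
    refine Filter.Eventually.of_forall fun y g => ?_
    refine mD_gen p q t hM.p3 hM.q3 hM.tp hM.tr hM.gen E (fun i => SS (n i)) hEc ?_ y g
    intro i Q hS h1 h2
    refine SS_perc (n i) Q hS (fun v hv => ?_) (fun v hv hv' => ?_)
    · rw [← hpV i]; exact h1 v hv
    · rw [← hqV i, ← hqV i]
      rw [← hqV i] at hv'
      exact h2 v hv hv'
  calc actionCost G (Bern G × VV) ((bernMeasure G).prod vm)
      ≤ dcost ((bernMeasure G).prod vm) (mD p q t E (fun i => SS (n i))) :=
        actionCost_le_dcost _ _ hmeas hgen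
    _ ≤ 1 + ∑' i, ((δ i : ℝ≥0∞) + (δ i + δ i)) := by
        refine (dcost_union_le _ (single t Set.univ) _).trans ?_
        rw [dcost_single, measure_univ]
        refine add_le_add le_rfl ?_
        refine (dcost_iU_le (ι := ι) _ (fun (i : ι) => cop (p i) (q i) (E i) (SS (n i)))).trans ?_
        refine ENNReal.tsum_le_tsum fun i => ?_
        refine (dcost_cop _ _ _ _ _ _).trans ?_
        exact add_le_add (hEμ i) (add_le_add (hEμ i) (hn i))
    _ = 1 + 3 * ∑' i, (δ i : ℝ≥0∞) := by
        rw [← ENNReal.tsum_mul_left]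
        congr 2
        funext i
        ring
    _ ≤ 1 + 3 * ((ε : ℝ≥0∞) / 3) := by gcongr
    _ = 1 + ε := by
        rw [ENNReal.mul_div_cancel (by norm_num) (by norm_num)]

end Vale.Agent.P189.M

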